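import Vale.Agent.P042.LB.H22.Row
import Vale.Agent.P042.LB.H409.Gen
import Vale.Agent.P042.LB.H409.Ruz
import Vale.Agent.P042.LB.H409.Sq

set_option autoImplicit false

/-!
P042: lower bounds for `r_h(N)` for general `h`.
-/

namespace Vale.Agent.Results.P042.LowerBounds

open Polynomial

/-- (1) For every `h` of degree `k ≥ 2`, `r_h(N) ≥ N ^ (1 - 1 / k + c / log log N)` for all
large `N`.
(2) For `h = a g ^ m` with `a ≥ 1`, `m ≥ 2` and `g` squarefree over `ℚ`, of degree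
`k = m deg g`, and every prime `p ≡ 1 mod 2m`,
`r_h(N) ≥ c N ^ (1 - (1 - log m / log p) / k)`.
(3) For `h = a g ^ 2` with `a ≥ 1` and `g` squarefree over `ℚ`, of degree `k = 2 deg g`,
`r_h(N) ≥ c N ^ (1 - 0.5012 / (k + 0.0525))`.
(4) For `h = a f g ^ m` of degree `k`, with `a ≥ 1`, `m ≥ 2`, `g` squarefree over `ℚ`, a
squarefree `b ≥ 2` with all `f(n)` prime to `b`, and a set `S` of residues modulo `b` no two of
which differ by `f(n) s ^ m` with `g(n) ≡ 0 mod b`: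
`r_h(N) ≥ c N ^ (1 - (1 - log |S| / log b) / k)`. -/
theorem result :
    (∀ h : ℤ[X], 2 ≤ h.natDegree →
      ∃ c : ℝ, 0 < c ∧ ∃ N0 : ℕ, ∀ N : ℕ, N0 ≤ N →
        (N : ℝ) ^ (1 - 1 / (h.natDegree : ℝ) + c / Real.log (Real.log N))
          ≤ (Vale.Agent.P042.rMax h N : ℝ)) ∧
    (∀ (g : ℤ[X]) (a m p : ℕ), Squarefree (g.map (Int.castRingHom ℚ)) → 1 ≤ g.natDegree →
      0 < a → 2 ≤ m → p.Prime → 2 * m ∣ p - 1 →
      ∃ c : ℝ, 0 < c ∧ ∀ N : ℕ, 1 ≤ N →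
        c * (N : ℝ) ^ (1 - (1 - Real.log m / Real.log p) / ((m * g.natDegree : ℕ) : ℝ))
          ≤ (Vale.Agent.P042.rMax (C (a : ℤ) * g ^ m) N : ℝ)) ∧
    (∀ (g : ℤ[X]) (a : ℤ), Squarefree (g.map (Int.castRingHom ℚ)) → 1 ≤ g.natDegree → 0 < a →
      ∃ c : ℝ, 0 < c ∧ ∀ N : ℕ, 1 ≤ N →
        c * (N : ℝ) ^ (1 - 0.5012 / (((2 * g.natDegree : ℕ) : ℝ) + 0.0525))
          ≤ (Vale.Agent.P042.rMax (C a * g ^ 2) N : ℝ)) ∧
    ∀ (f g : ℤ[X]) (a m b : ℕ) (S : Finset ℕ), Squarefree (g.map (Int.castRingHom ℚ)) →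
      1 ≤ g.natDegree → 0 < a → 2 ≤ m → 2 ≤ b → Squarefree b →
      (∀ n : ℤ, IsCoprime (f.eval n) (b : ℤ)) → (∀ x ∈ S, x < b) → S.Nonempty →
      (∀ x ∈ S, ∀ y ∈ S, ∀ n s : ℤ, (b : ℤ) ∣ g.eval n →
        (b : ℤ) ∣ (y : ℤ) - x - f.eval n * s ^ m → x = y) →
      ∃ c : ℝ, 0 < c ∧ ∀ N : ℕ, 1 ≤ N →
        c * (N : ℝ) ^ (1 - (1 - Real.log S.card / Real.log b) / ((f * g ^ m).natDegree : ℝ))
          ≤ (Vale.Agent.P042.rMax (C (a : ℤ) * (f * g ^ m)) N : ℝ) :=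
  ⟨fun h hk => Vale.Agent.P042.LB.H22.lb_loglog h hk,
    fun g a m p hg hd ha hm hp hpm =>
      Vale.Agent.P042.LB.lb_ruzsa g hg hd a m p ha hm hp hpm,
    fun g a hg hd ha => Vale.Agent.P042.LB.lb_sq g hg hd a ha,
    fun f g a m b S hg hd ha hm hb2 hb hf hS hS0 hSU =>
      Vale.Agent.P042.LB.lb_gen f g hg hd a m b ha hm hb2 hb hf S hS hS0 hSU⟩

end Vale.Agent.Results.P042.LowerBounds
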